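import Vale.Agent.P050.H546.GBase

/-!
Two natural ladders from a common centre rung, in the middle of a natural walk.
-/

set_option linter.unusedSectionVars false

namespace Vale.Agent.P050.H395

open Finset Vale.Agent.P050.Cart Vale.Agent.P050.Join Vale.Agent.P050.M18 Vale.Agent.P050.H546

section small

variable {α β γ : Type} [Fintype α] [Fintype β] [Fintype γ]

theorem mar_s2 (F : α × (β × γ) → ℝ) (a : α) (z : γ) :
    mar F (fun x => (x.1, x.2.2)) (a, z) = ∑ w, F (a, (w, z)) := by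
  classical
  unfold mar
  rw [Fintype.sum_prod_type, Finset.sum_eq_single a]
  · rw [Fintype.sum_prod_type]
    refine Finset.sum_congr rfl fun w _ => ?_
    rw [Finset.sum_eq_single z]
    · simp
    · intro z' _ hz
      rw [if_neg]
      simp only [Prod.mk.injEq, true_and]
      exact hz
    · intro hn; exact absurd (mem_univ _) hn
  · intro x' _ hx
    refine Finset.sum_eq_zero fun y _ => ?_
    rw [if_neg]
    simp only [Prod.mk.injEq, not_and]
    exact fun hh => absurd hh hx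
  · intro hn; exact absurd (mem_univ _) hn

theorem mar_s1 (F : (α × β) × γ → ℝ) (b : β) (z : γ) :
    mar F (fun x => (x.1.2, x.2)) (b, z) = ∑ a, F ((a, b), z) := by
  classical
  unfold mar
  rw [Fintype.sum_prod_type, Fintype.sum_prod_type]
  refine Finset.sum_congr rfl fun a _ => ?_
  rw [Finset.sum_eq_single b]
  · rw [Finset.sum_eq_single z]
    · simp
    · intro z' _ hz
      rw [if_neg]
      simp only [Prod.mk.injEq, true_and]
      exact hz
    · intro hn; exact absurd (mem_univ _) hn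
  · intro x' _ hx
    refine Finset.sum_eq_zero fun y _ => ?_
    rw [if_neg]
    simp only [Prod.mk.injEq, not_and]
    exact fun hh => absurd hh hx
  · intro hn; exact absurd (mem_univ _) hn

end small

section attnb

variable {U Ω : Type} [Fintype U] [DecidableEq U] [Fintype Ω] {Q : U × U → ℝ} (hE : Edge Q)
  {P : Ω → ℝ} {f : Ω → U} (nn : ∀ ω, 0 ≤ P ω) (hf : mar P f = mm Q)

include hE nn hf

theorem w_one (j : ℕ) (ω : Ω) (h : P ω ≠ 0) : ∑ z, zp (nb Q) j (f ω) z = 1 := by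
  refine kp_one hE j ?_
  rw [← hf]
  exact mar_ne_zero nn f h

theorem n_one (ω : Ω) (h : P ω ≠ 0) : ∑ z, nb Q (f ω) z = 1 := by
  refine hE.nb_one ?_
  rw [← hf]
  exact mar_ne_zero nn f h

theorem ent_f : ent P f = aQ Q := by
  unfold aQ
  refine ent_law fun a => ?_
  rw [hf, mar_id]

/-- attach the end of a walk -/
theorem w_ent (j : ℕ) {α : Type} [Fintype α] (g : Ω → α) (k : α → U) (hk : ∀ ω, f ω = k (g ω)) :
    ent (att P f (zp (nb Q) j)) (fun x => (g x.1, x.2)) = ent P g + (hh Q j - aQ Q) := by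
  have h1 := ent_att (P := P) (f := f) (K := zp (nb Q) j) nn (kp_nn hE j)
    (w_one hE nn hf j) g k hk
  have e1 : ent (att P f (zp (nb Q) j)) (fun x => (f x.1, x.2)) = hh Q j := by
    unfold hh
    refine ent_law fun a => ?_
    obtain ⟨y, z⟩ := a
    rw [mar_att (P := P) (f := f) (K := zp (nb Q) j) f (fun y => y) (fun _ => rfl) y z, mar_id, hf]
    rfl
  rw [e1, ent_f hE nn hf] at h1
  linarith

/-- attach a neighbour -/
theorem n_ent {α : Type} [Fintype α] (g : Ω → α) (k : α → U) (hk : ∀ ω, f ω = k (g ω)) :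
    ent (att P f (nb Q)) (fun x => (g x.1, x.2)) = ent P g + (hQ Q - aQ Q) := by
  have h1 := ent_att (P := P) (f := f) (K := nb Q) nn hE.nb_nn
    (n_one hE nn hf) g k hk
  have e1 : ent (att P f (nb Q)) (fun x => (f x.1, x.2)) = hQ Q := by
    unfold hQ
    refine ent_law fun a => ?_
    obtain ⟨y, z⟩ := a
    rw [mar_att (P := P) (f := f) (K := nb Q) f (fun y => y) (fun _ => rfl) y z, mar_id, hf]
    exact hE.mm_mul_nb y z
  rw [e1, ent_f hE nn hf] at h1
  linarith

end attnb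

section base

variable {U : Type} [Fintype U] [DecidableEq U] {Q : U × U → ℝ}

/-- the two ladders -/
noncomputable def P1 (Q : U × U → ℝ) (r p : ℕ) : ((U × U) × (U × U)) × (U × U) → ℝ :=
  att (PP Q r) (fun x => x.1) (zp (kk Q) p)

/-- and a neighbour of the right end -/
noncomputable def P2 (Q : U × U → ℝ) (r p : ℕ) : (((U × U) × (U × U)) × (U × U)) × U → ℝ :=
  att (P1 Q r p) (fun x => x.1.2.2) (nb Q)

/-- and a neighbour of the left end -/
noncomputable def P3 (Q : U × U → ℝ) (r p : ℕ) :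
    ((((U × U) × (U × U)) × (U × U)) × U) × U → ℝ :=
  att (P2 Q r p) (fun x => x.1.2.2) (nb Q)

variable (hE : Edge Q) (r p : ℕ)

include hE

/-- the law of the first rung and the second vertex of the last rung -/
theorem PPR (n : ℕ) (R : U × U) (z : U) : mar (PP Q n) (fun x => (x.1, x.2.2)) (R, z) =
    Q R * zp (nb Q) n R.2 z := by
  induction n generalizing z with
  | zero =>
    rw [mar_s2]
    show ∑ w, PP Q 0 (R, (w, z)) = Q R * (if R.2 = z then (1 : ℝ) else 0)
    have h : ∀ w, PP Q 0 (R, (w, z)) = Q R * (if R = (w, z) then (1 : ℝ) else 0) := fun w =>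
      PP_apply hE 0 R (w, z)
    rw [Finset.sum_congr rfl fun w _ => h w, ← Finset.mul_sum]
    congr 1
    by_cases hz : R.2 = z
    · rw [if_pos hz, Finset.sum_eq_single R.1]
      · rw [if_pos (show R = (R.1, z) from Prod.ext rfl hz)]
      · intro w _ hw
        rw [if_neg]
        intro h1
        exact hw (by rw [h1])
      · intro hn; exact absurd (mem_univ _) hn
    · rw [if_neg hz]
      refine Finset.sum_eq_zero fun w _ => ?_
      rw [if_neg]
      intro h1
      exact hz (by rw [h1])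
  | succ n ih =>
    have e1 : PP Q (n + 1) = nx Q (PP Q n) := rfl
    rw [e1, (PP_lab hE n).nx_fresh hE]
    simp only [ih]
    show _ = Q R * ∑ c, zp (nb Q) n R.2 c * nb Q c z
    rw [Finset.mul_sum]
    exact Finset.sum_congr rfl fun c _ => by ring

theorem kz_nn (n : ℕ) (R b : U × U) : 0 ≤ zp (kk Q) n R b := zp_nonneg hE.kk_nn n R b

theorem kz_one (n : ℕ) {R : U × U} (hR : Q R ≠ 0) : ∑ b, zp (kk Q) n R b = 1 := by
  have h1 : mar (PP Q n) (fun x => x.1) R = ∑ e, PP Q n (R, e) := mar_prod_fst _ _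
  rw [PP_fst hE] at h1
  simp only [PP_apply hE, ← Finset.mul_sum] at h1
  field_simp at h1
  exact h1.symm

theorem kz_snd (n : ℕ) {R : U × U} (hR : Q R ≠ 0) (z : U) :
    ∑ w, zp (kk Q) n R (w, z) = zp (nb Q) n R.2 z := by
  have h1 := PPR hE n R z
  rw [mar_s2] at h1
  simp only [PP_apply hE, ← Finset.mul_sum] at h1
  exact mul_left_cancel₀ hR h1

theorem PPn (x) : 0 ≤ PP Q r x := (PP_lab hE r).nn x

theorem PPfst_ne {x : (U × U) × (U × U)} (h : PP Q r x ≠ 0) : Q x.1 ≠ 0 := by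
  have := mar_ne_zero (PPn hE r) (fun x => x.1) h
  rwa [PP_fst hE] at this

theorem o1 (x : (U × U) × (U × U)) (h : PP Q r x ≠ 0) : ∑ b, zp (kk Q) p x.1 b = 1 :=
  kz_one hE p (PPfst_ne hE r h)

theorem P1_nn (x) : 0 ≤ P1 Q r p x := att_nonneg (PPn hE r) (kz_nn hE p) x

theorem P1_tot : ∑ x, P1 Q r p x = 1 := att_total ((PP_lab hE r).tot hE) (o1 hE r p)

theorem P1_fst {α : Type} (g : (U × U) × (U × U) → α) :
    mar (P1 Q r p) (fun x => g x.1) = mar (PP Q r) g := mar_att_fst (o1 hE r p) g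

/-- the law of `(R, b)` -/
theorem P1_Rb : mar (P1 Q r p) (fun x => (x.1.1, x.2)) = PP Q p := by
  funext ⟨R, b⟩
  have h := mar_att (P := PP Q r) (f := fun x => x.1) (K := zp (kk Q) p) (fun x => x.1)
    (fun y => y) (fun _ => rfl) R b
  rw [PP_fst hE] at h
  rw [PP_apply hE]
  exact h

/-- the law of `((R, a), b.2)` -/
theorem P1_Rab (R a : U × U) (z : U) : mar (P1 Q r p) (fun x => (x.1, x.2.2)) ((R, a), z) =
    PP Q r (R, a) * zp (nb Q) p R.2 z := by
  rw [mar_s2]
  show ∑ w, PP Q r (R, a) * zp (kk Q) p R (w, z) = _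
  rw [← Finset.mul_sum]
  by_cases h : PP Q r (R, a) = 0
  · rw [h]; ring
  · rw [kz_snd hE p (PPfst_ne hE r h)]

/-- the law of `((R, a.2), b)` -/
theorem P1_Rba (R : U × U) (y : U) (b : U × U) :
    mar (P1 Q r p) (fun x => ((x.1.1, x.1.2.2), x.2)) ((R, y), b) =
      Q R * zp (nb Q) r R.2 y * zp (kk Q) p R b := by
  have h := mar_att (P := PP Q r) (f := fun x => x.1) (K := zp (kk Q) p)
    (fun x => (x.1, x.2.2)) (fun y => y.1) (fun _ => rfl) (R, y) b
  rw [PPR hE] at h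
  exact h

/-- the law of `(a.2, b.2)` -/
theorem P1_ab : mar (P1 Q r p) (fun x => (x.2.2, x.1.2.2)) = EE Q (p + r) := by
  refine EE_swap hE (f := fun x : ((U × U) × (U × U)) × (U × U) => x.1.2.2)
    (g := fun x => x.2.2) ?_
  funext ⟨y, z⟩
  have h1 : mar (P1 Q r p) (fun x => (x.1.2.2, x.2.2)) =
      mar (mar (P1 Q r p) (fun x => (((x.1.1, x.1.2.2)), x.2.2))) (fun w => (w.1.2, w.2)) := by
    funext a
    rw [mar_mar]
  rw [h1, mar_s1]
  have h2 : ∀ R, mar (P1 Q r p) (fun x => (((x.1.1, x.1.2.2)), x.2.2)) ((R, y), z) =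
      Q R * zp (nb Q) r R.2 y * zp (nb Q) p R.2 z := by
    intro R
    have h3 : mar (P1 Q r p) (fun x => (((x.1.1, x.1.2.2)), x.2.2)) =
        mar (mar (P1 Q r p) (fun x => ((x.1.1, x.1.2.2), x.2))) (fun w => (w.1, w.2.2)) := by
      funext a
      rw [mar_mar]
    rw [h3, mar_s2]
    simp only [P1_Rba hE]
    rw [← Finset.mul_sum]
    by_cases h : Q R = 0
    · rw [h]; ring
    · rw [kz_snd hE p h]
  simp only [h2]
  rw [Fintype.sum_prod_type_right]
  have h4 : ∀ v, ∑ u, Q (u, v) * zp (nb Q) r v y * zp (nb Q) p v z =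
      mm Q y * zp (nb Q) r y v * zp (nb Q) p v z := by
    intro v
    rw [← Finset.sum_mul, ← Finset.sum_mul]
    have h5 : ∑ u, Q (u, v) = mm Q v := by
      unfold mm
      exact Finset.sum_congr rfl fun u _ => hE.sym u v
    rw [h5, kp_rev hE r v y]
  simp only [h4]
  show _ = mm Q y * zp (nb Q) (p + r) y z
  rw [add_comm p r, zp_add, Finset.mul_sum]
  exact Finset.sum_congr rfl fun v _ => by ring

theorem EE_f {Ω : Type} [Fintype Ω] {P : Ω → ℝ} {f g : Ω → U} {j : ℕ}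
    (h : mar P (fun ω => (f ω, g ω)) = EE Q j) : mar P f = mm Q := by
  have h1 : mar P f = mar (mar P (fun ω => (f ω, g ω))) (fun y => y.1) := by
    funext a
    rw [mar_mar]
  rw [h1, h]
  funext a
  rw [mar_prod_fst]
  exact EE_fst hE j a

theorem m1a : mar (P1 Q r p) (fun x => x.1.2.2) = mm Q :=
  EE_f hE (f := fun x : ((U × U) × (U × U)) × (U × U) => x.1.2.2)
    (g := fun x => x.2.2) (EE_swap hE (P1_ab hE r p))

theorem m1b : mar (P1 Q r p) (fun x => x.2.2) = mm Q :=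
  EE_f hE (f := fun x : ((U × U) × (U × U)) × (U × U) => x.2.2)
    (g := fun x => x.1.2.2) (P1_ab hE r p)

theorem P2_nn (x) : 0 ≤ P2 Q r p x := att_nonneg (P1_nn hE r p) hE.nb_nn x

theorem o2 (x) (h : P1 Q r p x ≠ 0) : ∑ z, nb Q x.1.2.2 z = 1 :=
  n_one hE (P1_nn hE r p) (m1a hE r p) x h

theorem P2_tot : ∑ x, P2 Q r p x = 1 := att_total (P1_tot hE r p) (o2 hE r p)

theorem P2_fst {α : Type} (g : ((U × U) × (U × U)) × (U × U) → α) :
    mar (P2 Q r p) (fun x => g x.1) = mar (P1 Q r p) g := mar_att_fst (o2 hE r p) g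

theorem m2b : mar (P2 Q r p) (fun x => x.1.2.2) = mm Q := by
  rw [P2_fst hE r p (fun x => x.2.2), m1b hE]

theorem P3_nn (x) : 0 ≤ P3 Q r p x := att_nonneg (P2_nn hE r p) hE.nb_nn x

theorem o3 (x) (h : P2 Q r p x ≠ 0) : ∑ z, nb Q x.1.2.2 z = 1 :=
  n_one hE (P2_nn hE r p) (m2b hE r p) x h

theorem P3_tot : ∑ x, P3 Q r p x = 1 := att_total (P2_tot hE r p) (o3 hE r p)

theorem P3_fst {α : Type} (g : (((U × U) × (U × U)) × (U × U)) × U → α) :
    mar (P3 Q r p) (fun x => g x.1) = mar (P2 Q r p) g := mar_att_fst (o3 hE r p) g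

theorem P3_fst2 {α : Type} (g : ((U × U) × (U × U)) × (U × U) → α) :
    mar (P3 Q r p) (fun x => g x.1.1) = mar (P1 Q r p) g :=
  (P3_fst hE r p (fun x => g x.1)).trans (P2_fst hE r p g)

theorem P3_fst3 {α : Type} (g : (U × U) × (U × U) → α) :
    mar (P3 Q r p) (fun x => g x.1.1.1) = mar (PP Q r) g :=
  (P3_fst2 hE r p (fun x => g x.1)).trans (P1_fst hE r p g)

theorem lue : mar (P3 Q r p) (fun x => (x.1.1.2.2, x.1.2)) = EE Q (p + r + 1) := by
  rw [P3_fst hE r p (fun x => (x.1.2.2, x.2))]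
  funext ⟨x, z⟩
  have h := att_mar2 (P1 Q r p) (fun x => x.1.2.2) (nb Q) (fun x => x.2.2) x z
  rw [P1_ab hE] at h
  refine h.trans ?_
  show ∑ d, (mm Q x * zp (nb Q) (p + r) x d) * nb Q d z =
    mm Q x * ∑ c, zp (nb Q) (p + r) x c * nb Q c z
  rw [Finset.mul_sum]
  exact Finset.sum_congr rfl fun v _ => by ring

theorem ldv : mar (P3 Q r p) (fun x => (x.2, x.1.1.1.2.2)) = EE Q (p + r + 1) := by
  refine EE_swap hE (f := fun x : ((((U × U) × (U × U)) × (U × U)) × U) × U => x.1.1.1.2.2)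
    (g := fun x => x.2) ?_
  funext ⟨x, z⟩
  have h := att_mar2 (P2 Q r p) (fun x => x.1.2.2) (nb Q) (fun x => x.1.1.2.2) x z
  have h1 := P2_fst hE r p (fun x => (x.1.2.2, x.2.2))
  rw [h1, EE_swap hE (P1_ab hE r p)] at h
  refine h.trans ?_
  show ∑ d, (mm Q x * zp (nb Q) (p + r) x d) * nb Q d z =
    mm Q x * ∑ c, zp (nb Q) (p + r) x c * nb Q c z
  rw [Finset.mul_sum]
  exact Finset.sum_congr rfl fun v _ => by ring

/-- the law of `((R, b), e)` -/
theorem lRbe (R b : U × U) (z : U) :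
    mar (P2 Q r p) (fun x => ((x.1.1.1, x.1.2), x.2)) ((R, b), z) =
      mar (att (PP Q p) (fun x => x.1.2) (zp (nb Q) (r + 1))) (fun x => x) ((R, b), z) := by
  have h := att_mar2 (P1 Q r p) (fun x => x.1.2.2) (nb Q) (fun x => (x.1.1, x.2)) (R, b) z
  refine h.trans ?_
  rw [mar_id]
  show _ = PP Q p (R, b) * ∑ c, zp (nb Q) r R.2 c * nb Q c z
  rw [Finset.mul_sum]
  refine Finset.sum_congr rfl fun y _ => ?_
  have h2 : mar (P1 Q r p) (fun x => ((x.1.1, x.2), x.1.2.2)) ((R, b), y) =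
      mar (P1 Q r p) (fun x => ((x.1.1, x.1.2.2), x.2)) ((R, y), b) :=
    mar_inj (P1 Q r p) (fun x => ((x.1.1, x.1.2.2), x.2))
      (e := fun w : ((U × U) × U) × (U × U) => ((w.1.1, w.2), w.1.2)) (fun a b hab => by
        simp only [Prod.mk.injEq] at hab
        exact Prod.ext (Prod.ext hab.1.1 hab.2) hab.1.2) ((R, y), b)
  rw [h2, P1_Rba hE, PP_apply hE]
  ring

/-- the law of `((R, a), d)` -/
theorem lRad (R a : U × U) (z : U) :
    mar (P3 Q r p) (fun x => (x.1.1.1, x.2)) ((R, a), z) =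
      mar (att (PP Q r) (fun x => x.1.2) (zp (nb Q) (p + 1))) (fun x => x) ((R, a), z) := by
  have h := att_mar2 (P2 Q r p) (fun x => x.1.2.2) (nb Q) (fun x => x.1.1) (R, a) z
  refine h.trans ?_
  rw [mar_id]
  show _ = PP Q r (R, a) * ∑ c, zp (nb Q) p R.2 c * nb Q c z
  rw [Finset.mul_sum]
  refine Finset.sum_congr rfl fun y _ => ?_
  have h2 := P2_fst hE r p (fun x => (x.1, x.2.2))
  have h3 := P1_Rab hE r p R a y
  rw [← h2] at h3
  rw [show mar (P2 Q r p) (fun ω => (ω.1.1, ω.1.2.2)) ((R, a), y) =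
    PP Q r (R, a) * zp (nb Q) p R.2 y from h3]
  ring

theorem PP_f2 : mar (PP Q r) (fun x => x.1.2) = mm Q := by
  have h1 : mar (PP Q r) (fun x => x.1.2) = mar (mar (PP Q r) (fun x => x.1)) (fun e => e.2) := by
    funext a
    rw [mar_mar]
  rw [h1, PP_fst hE, hE.mar_snd_Q]

theorem PP_e1 {α : Type} [Fintype α] (g : U × U → α) :
    ent (PP Q r) (fun x => g x.1) = ent Q g := by
  have h1 : ent (PP Q r) (fun x => g x.1) = ent (mar (PP Q r) (fun x => x.1)) g := by
    rw [ent_mar]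
  rw [h1, PP_fst hE]

theorem entW (j : ℕ) : ent (att (PP Q r) (fun x => x.1.2) (zp (nb Q) j)) (fun x => x) =
    hP Q r + (hh Q j - aQ Q) :=
  w_ent hE (PPn hE r) (PP_f2 hE r) j (fun x => x) (fun x => x.1.2) (fun _ => rfl)

theorem entP1 : ent (P1 Q r p) (fun x => x) = hP Q r + hP Q p - hQ Q := by
  have h1 := ent_att (P := PP Q r) (f := fun x => x.1) (K := zp (kk Q) p) (PPn hE r)
    (kz_nn hE p) (o1 hE r p) (fun x => x) (fun x => x.1) (fun _ => rfl)
  have e1 : ent (att (PP Q r) (fun x => x.1) (zp (kk Q) p)) (fun x => (x.1.1, x.2)) = hP Q p := by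
    unfold hP
    refine ent_law fun a => ?_
    rw [mar_id]
    exact congrFun (P1_Rb hE r p) a
  have e2 : ent (PP Q r) (fun x => x.1) = hQ Q := PP_e1 hE r (fun e => e)
  have e3 : ent (PP Q r) (fun x => x) = hP Q r := rfl
  have e4 : ent (att (PP Q r) (fun x => x.1) (zp (kk Q) p)) (fun x => (x.1, x.2)) =
    ent (P1 Q r p) (fun x => x) := rfl
  rw [e1, e2, e3, e4] at h1
  linarith

theorem e2n {α : Type} [Fintype α] (g : ((U × U) × (U × U)) × (U × U) → α) (k : α → U)
    (hk : ∀ ω, ω.1.2.2 = k (g ω)) :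
    ent (P2 Q r p) (fun x => (g x.1, x.2)) = ent (P1 Q r p) g + (hQ Q - aQ Q) :=
  n_ent hE (P1_nn hE r p) (m1a hE r p) g k hk

theorem e3n {α : Type} [Fintype α] (g : (((U × U) × (U × U)) × (U × U)) × U → α) (k : α → U)
    (hk : ∀ ω, ω.1.2.2 = k (g ω)) :
    ent (P3 Q r p) (fun x => (g x.1, x.2)) = ent (P2 Q r p) g + (hQ Q - aQ Q) :=
  n_ent hE (P2_nn hE r p) (m2b hE r p) g k hk

theorem e2f {α : Type} [Fintype α] (g : ((U × U) × (U × U)) × (U × U) → α) :
    ent (P2 Q r p) (fun x => g x.1) = ent (P1 Q r p) g := by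
  unfold ent
  rw [P2_fst hE r p g]

theorem e3f {α : Type} [Fintype α] (g : (((U × U) × (U × U)) × (U × U)) × U → α) :
    ent (P3 Q r p) (fun x => g x.1) = ent (P2 Q r p) g := by
  unfold ent
  rw [P3_fst hE r p g]

theorem eAll : ent (P3 Q r p) (fun x => (x.1.1.1.1, x.1.1.1.2, x.1.1.2, x.2, x.1.2)) =
    hP Q r + hP Q p - hQ Q + 2 * (hQ Q - aQ Q) := by
  have h1 := e3n hE r p (fun x => x) (fun x => x.1.2.2) (fun _ => rfl)
  have h2 := e2n hE r p (fun x => x) (fun x => x.1.2.2) (fun _ => rfl)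
  have h3 := entP1 hE r p
  have h4 : ent (P3 Q r p) (fun x => (x.1.1.1.1, x.1.1.1.2, x.1.1.2, x.2, x.1.2)) =
      ent (P3 Q r p) (fun x => (x.1, x.2)) := ent_same _ fun x y => by
    simp only [Prod.ext_iff]
    tauto
  have h5 : ent (P2 Q r p) (fun x => (x.1, x.2)) = ent (P2 Q r p) (fun x => x) := rfl
  rw [h5] at h2
  rw [h4, h1, h2, h3]
  ring

theorem entb : ent (P2 Q r p) (fun x => x.1.2) = hQ Q := by
  rw [e2f hE r p (fun x => x.2)]
  have h1 : ent (P1 Q r p) (fun x => x.2) =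
      ent (mar (P1 Q r p) (fun x => (x.1.1, x.2))) (fun y => y.2) := by
    rw [ent_mar]
  rw [h1, P1_Rb hE]
  exact (PP_lab hE p).ent_edge hE fun e => e

theorem entRb : ent (P2 Q r p) (fun x => (x.1.1.1, x.1.2)) = hP Q p := by
  rw [e2f hE r p (fun x => (x.1.1, x.2))]
  unfold hP
  refine ent_law fun c => ?_
  rw [P1_Rb hE, mar_id]

theorem e1 : 2 * hQ Q - 2 * aQ Q + hh Q (r + 1) ≤
    ent (P3 Q r p) (fun x => ((x.1.1.2.1, x.2, x.1.2), x.1.1.2.2)) := by
  have h1 := e3n hE r p (fun x => (x.1.2, x.2)) (fun y => y.1.2) (fun _ => rfl)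
  have h4 : ent (P3 Q r p) (fun x => ((x.1.1.2.1, x.2, x.1.2), x.1.1.2.2)) =
      ent (P3 Q r p) (fun x => ((x.1.1.2, x.1.2), x.2)) := ent_same _ fun x y => by
    simp only [Prod.ext_iff]
    tauto
  rw [h4, h1]
  have s1 := subm (P2_nn hE r p) (A := fun x => (x.1.2, x.2))
    (B := fun x => (x.1.1.1, x.1.2)) (C := fun x => ((x.1.1.1, x.1.2), x.2))
    (D := fun x => x.1.2) (fun x y => by
      simp only [Prod.mk.injEq]
      tauto) (fun x y => by
      simp only [Prod.mk.injEq]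
      tauto) (fun x y => by
      simp only [Prod.mk.injEq]
      tauto)
  have t1 : ent (P2 Q r p) (fun x => ((x.1.1.1, x.1.2), x.2)) =
      hP Q p + (hh Q (r + 1) - aQ Q) := by
    rw [← entW hE p (r + 1)]
    refine ent_law fun c => ?_
    obtain ⟨⟨R, b⟩, z⟩ := c
    exact lRbe hE r p R b z
  rw [t1, entb hE, entRb hE] at s1
  linarith

theorem enta : ent (P3 Q r p) (fun x => x.1.1.1.2) = hQ Q := by
  have h1 : ent (P3 Q r p) (fun x => x.1.1.1.2) = ent (PP Q r) (fun x => x.2) := by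
    unfold ent
    rw [P3_fst3 hE r p (fun x => x.2)]
  rw [h1]
  exact (PP_lab hE r).ent_edge hE fun e => e

theorem e2 : 2 * hQ Q - 2 * aQ Q + hh Q (p + 1) ≤
    ent (P3 Q r p) (fun x => ((x.1.1.1.2.1, x.1.2, x.2), x.1.1.1.2.2)) := by
  have h4 : ent (P3 Q r p) (fun x => ((x.1.1.1.2.1, x.1.2, x.2), x.1.1.1.2.2)) =
      ent (P3 Q r p) (fun x => ((x.1.1.1.2, x.1.2), x.2)) := ent_same _ fun x y => by
    simp only [Prod.ext_iff]
    tauto
  rw [h4]
  -- remove `b`
  have s1 := subm (P3_nn hE r p) (A := fun x => ((x.1.1.1.2, x.1.2), x.2))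
    (B := fun x => ((x.1.1.1.2, x.1.1.2), x.2))
    (C := fun x => (((x.1.1.1.2, x.1.1.2), x.1.2), x.2))
    (D := fun x => (x.1.1.1.2, x.2)) (fun x y => by
      simp only [Prod.mk.injEq]
      tauto) (fun x y => by
      simp only [Prod.mk.injEq]
      tauto) (fun x y => by
      simp only [Prod.mk.injEq]
      tauto)
  have c1 := e3n hE r p (fun x => ((x.1.1.2, x.1.2), x.2)) (fun y => y.1.2.2) (fun _ => rfl)
  have c2 := e2n hE r p (fun x => (x.1.2, x.2)) (fun y => y.1.2) (fun _ => rfl)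
  have c3 := e3n hE r p (fun x => (x.1.1.2, x.1.2)) (fun y => y.2.2) (fun _ => rfl)
  have c4 := e2f hE r p (fun x => (x.1.2, x.2))
  rw [c1, c2, c3, c4] at s1
  -- remove `R`
  have s2 := subm (P3_nn hE r p) (A := fun x => (x.1.1.1.2, x.2))
    (B := fun x => x.1.1.1) (C := fun x => (x.1.1.1, x.2))
    (D := fun x => x.1.1.1.2) (fun x y => by
      simp only [Prod.mk.injEq]
      tauto) (fun x y => by
      simp only [Prod.mk.injEq]
      tauto) (fun x y => by
      intro h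
      rw [h])
  have t1 : ent (P3 Q r p) (fun x => (x.1.1.1, x.2)) = hP Q r + (hh Q (p + 1) - aQ Q) := by
    rw [← entW hE r (p + 1)]
    refine ent_law fun c => ?_
    obtain ⟨⟨R, a⟩, z⟩ := c
    exact lRad hE r p R a z
  have t2 : ent (P3 Q r p) (fun x => x.1.1.1) = hP Q r := by
    unfold hP ent
    rw [P3_fst3 hE r p (fun x => x)]
  rw [t1, t2, enta hE] at s2
  linarith

end base

end Vale.Agent.P050.H395
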