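import Vale.Agent.P050.H762.GClose

/-!
The closing of two ladders with any base law.
-/

set_option linter.unusedSectionVars false

namespace Vale.Agent.P050.H395

open Finset Vale.Agent.P050.H148 Vale.Agent.P050.Cart Vale.Agent.P050.Join Vale.Agent.P050.M18
open Vale.Agent.P050.H546 Vale.Agent.P050.H762

/-- the law of the centre rung `R`, of `a = (s_{m-1}, v)`, of `b = (s_1, u)`, of `d = d_0` and of
`e = d_m`, with lower bounds of three entropies -/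
structure B2 {U Ω : Type} [Fintype U] [DecidableEq U] [Fintype Ω] (Q : U × U → ℝ) (r p j : ℕ)
    (P : Ω → ℝ) (R a b : Ω → U × U) (d e : Ω → U) (x0 x1 x2 : ℝ) : Prop where
  nn : ∀ ω, 0 ≤ P ω
  tot : ∑ ω, P ω = 1
  la : mar P (fun ω => (R ω, a ω)) = PP Q r
  lb : mar P (fun ω => (R ω, b ω)) = PP Q p
  sud : ∀ ω, P ω ≠ 0 → Q ((b ω).2, d ω) ≠ 0
  sve : ∀ ω, P ω ≠ 0 → Q ((a ω).2, e ω) ≠ 0
  lue : mar P (fun ω => ((b ω).2, e ω)) = EE Q j
  ldv : mar P (fun ω => (d ω, (a ω).2)) = EE Q j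
  ent : x0 ≤ Cart.ent P (fun ω => (R ω, a ω, b ω, d ω, e ω))
  e1 : x1 ≤ Cart.ent P (fun ω => (((b ω).1, d ω, e ω), (b ω).2))
  e2 : x2 ≤ Cart.ent P (fun ω => (((a ω).1, e ω, d ω), (a ω).2))

/-- the number of the cut ladders -/
def nM {U : Type} [Fintype U] [DecidableEq U] (C : U × U → U × U → ℝ) (A : U → U → ℝ)
    (r p j : ℕ) : ℝ :=
  ∑ R, ∑ a, ∑ b, zp C (r + 1) R a * zp C (p + 1) R b * cj A j b a

section main

variable {U Ω : Type} [Fintype U] [DecidableEq U] [Fintype Ω]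
variable {C : U × U → U × U → ℝ} {A : U → U → ℝ}
  {Q : U × U → ℝ} {P : Ω → ℝ} {R a b : Ω → U × U} {d e : Ω → U} {r p j : ℕ} {x0 x1 x2 : ℝ}

/-- the weight -/
def wm (C : U × U → U × U → ℝ) (A : U → U → ℝ) (r p j : ℕ)
    (y : (U × U) × (U × U) × (U × U) × (U × U) × (U × U)) : ℝ :=
  zp C r y.1 y.2.2.2.1 * C y.2.2.2.1 y.2.1 *
    (zp C p y.1 y.2.2.2.2 * C y.2.2.2.2 y.2.2.1) * cj A j y.2.2.1 y.2.1

theorem sum_wm : ∑ y, wm C A r p j y = nM C A r p j := by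
  unfold nM wm
  rw [Fintype.sum_prod_type]
  refine Finset.sum_congr rfl fun R _ => ?_
  rw [Fintype.sum_prod_type]
  refine Finset.sum_congr rfl fun a' _ => ?_
  rw [Fintype.sum_prod_type]
  refine Finset.sum_congr rfl fun b' _ => ?_
  rw [Fintype.sum_prod_type]
  have e1 : zp C (r + 1) R a' = ∑ c, zp C r R c * C c a' := rfl
  have e2 : zp C (p + 1) R b' = ∑ c, zp C p R c * C c b' := rfl
  rw [e1, e2, Finset.sum_mul_sum, Finset.sum_mul]
  refine Finset.sum_congr rfl fun c _ => ?_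
  rw [Finset.sum_mul]

theorem close (hV : GValStmt) (hE : Edge Q) (hC : Four C Q)
    (hA : ∀ x y, 0 ≤ A x y) (hA1 : ∀ x y, Q (x, y) ≠ 0 → A x y = 1)
    (B : B2 Q r p j P R a b d e x0 x1 x2) :
    0 < nM C A r p j ∧ x0 - hP Q r - hP Q p + (hQ Q + r * gQ Q) + (hQ Q + p * gQ Q) +
      (x1 - 3 * aQ Q) + (x2 - 3 * aQ Q) + 2 * (aQ Q + j * (hQ Q - aQ Q) - hh Q j) ≤
      Real.log (nM C A r p j) := by
  obtain ⟨V1, V2⟩ := hV U A Q hE hA hA1 j
  -- marginals of the base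
  have ma : mar P (fun ω => a ω) = Q := by
    have h1 : mar P (fun ω => a ω) = mar (mar P (fun ω => (R ω, a ω))) (fun x => x.2) := by
      funext x
      rw [mar_mar]
    rw [h1, B.la]
    exact (PP_lab hE r).snd
  have mb : mar P (fun ω => b ω) = Q := by
    have h1 : mar P (fun ω => b ω) = mar (mar P (fun ω => (R ω, b ω))) (fun x => x.2) := by
      funext x
      rw [mar_mar]
    rw [h1, B.lb]
    exact (PP_lab hE p).snd
  have sa : ∀ ω, P ω ≠ 0 → Q (a ω) ≠ 0 := fun ω h => by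
    have := mar_ne_zero B.nn (fun ω => a ω) h
    rwa [ma] at this
  have sb : ∀ ω, P ω ≠ 0 → Q (b ω) ≠ 0 := fun ω h => by
    have := mar_ne_zero B.nn (fun ω => b ω) h
    rwa [mb] at this
  have ena : Cart.ent P (fun ω => (a ω).1) = aQ Q := by
    rw [ent_of_mar ma (fun x => x.1)]
    exact Edge.ent_fst hE
  have enb : Cart.ent P (fun ω => (b ω).1) = aQ Q := by
    rw [ent_of_mar mb (fun x => x.1)]
    exact Edge.ent_fst hE
  have ene : Cart.ent P e = aQ Q := (ent_of_mar B.lue (fun y => y.2)).trans (EE_ent_snd hE _)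
  have hend : Cart.ent P d = aQ Q := (ent_of_mar B.ldv (fun y => y.1)).trans (EE_ent_fst hE _)
  -- the copy of `u`
  set c1 : Ω → U × U × U := fun ω => ((b ω).1, d ω, e ω) with hc1
  set P1 := cop P c1 (fun ω => (b ω).2) with hP1
  have p0 : ∀ x, 0 ≤ P1 x := cop_nonneg B.nn _ _
  have p1 : ∑ x, P1 x = 1 := cop_total B.nn _ _ B.tot
  -- the copy of `v`
  set c2' : Ω × U → U × U × U := fun x => ((a x.1).1, e x.1, d x.1) with hc2
  set P2 := cop P1 c2' (fun x => (a x.1).2) with hP2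
  have q0 : ∀ x, 0 ≤ P2 x := cop_nonneg p0 _ _
  have q1 : ∑ x, P2 x = 1 := cop_total p0 _ _ p1
  have l1 : mar P1 (fun x => (c1 x.1, x.2)) = mar P (fun ω => (c1 ω, (b ω).2)) :=
    cop_law B.nn _ _
  have l2 : mar P2 (fun x => (c2' x.1, x.2)) = mar P1 (fun x => (c2' x, (a x.1).2)) :=
    cop_law p0 _ _
  have l2' : mar P1 (fun x => (c2' x, (a x.1).2)) =
      mar P (fun ω => (((a ω).1, e ω, d ω), (a ω).2)) :=
    cop_fst B.nn _ _ (fun ω => (((a ω).1, e ω, d ω), (a ω).2))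
  have l3 : mar P2 (fun x => (d x.1.1, x.2)) = EE Q j := by
    rw [← B.ldv]
    exact mar_comp (l2.trans l2') (fun y => (y.1.2.2, y.2))
  have l4 : mar P2 (fun x => (x.1.2, e x.1.1)) = EE Q j := by
    rw [← B.lue]
    have h1 : mar P2 (fun x => (x.1.2, e x.1.1)) = mar P1 (fun x => (x.2, e x.1)) :=
      cop_fst p0 _ _ (fun x => (x.2, e x.1))
    rw [h1]
    exact mar_comp l1 (fun y => (y.2, y.1.2.2))
  have m2 : ∀ {γ : Type} (g : Ω → γ), mar P2 (fun x => g x.1.1) = mar P g := by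
    intro γ g
    have h3 : mar P2 (fun x => g x.1.1) = mar P1 (fun x => g x.1) :=
      cop_fst p0 _ _ (fun x => g x.1)
    have h4 : mar P1 (fun x => g x.1) = mar P g := cop_fst B.nn _ _ g
    rw [h3, h4]
  -- the support
  have sP1 : ∀ x, P1 x ≠ 0 → P x.1 ≠ 0 ∧ Q ((b x.1).1, x.2) ≠ 0 ∧ Q (x.2, d x.1) ≠ 0 := by
    intro x hx
    obtain ⟨h1, ω, h2, h3, h4⟩ := cop_ne_zero B.nn _ _ hx
    have h5 := sb ω h2
    have h6 := B.sud ω h2
    simp only [hc1, Prod.mk.injEq] at h3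
    refine ⟨h1, ?_, ?_⟩
    · have h7 : b ω = ((b x.1).1, x.2) := Prod.ext h3.1 h4
      rwa [h7] at h5
    · rw [h4, h3.2.1] at h6
      exact h6
  have sP2 : ∀ x, P2 x ≠ 0 → P1 x.1 ≠ 0 ∧ Q ((a x.1.1).1, x.2) ≠ 0 ∧ Q (x.2, e x.1.1) ≠ 0 := by
    intro x hx
    obtain ⟨h1, ω, h2, h3, h4⟩ := cop_ne_zero p0 _ _ hx
    have h2' := (sP1 ω h2).1
    have h5 := sa ω.1 h2'
    have h6 := B.sve ω.1 h2'
    simp only [hc2, Prod.mk.injEq] at h3
    refine ⟨h1, ?_, ?_⟩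
    · have h7 : a ω.1 = ((a x.1.1).1, x.2) := Prod.ext h3.1 h4
      rwa [h7] at h5
    · rw [h4, h3.2.1] at h6
      exact h6
  -- the weight on the support
  set f : ((Ω × U) × U) → (U × U) × (U × U) × (U × U) × (U × U) × (U × U) :=
    fun x => (R x.1.1, (x.2, e x.1.1), (x.1.2, d x.1.1), a x.1.1, b x.1.1) with hf
  have hz : ∀ x, P2 x ≠ 0 → zp C r (R x.1.1) (a x.1.1) ≠ 0 ∧
      zp C p (R x.1.1) (b x.1.1) ≠ 0 ∧ zp A j (d x.1.1) x.2 ≠ 0 ∧
      zp A j x.1.2 (e x.1.1) ≠ 0 ∧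
      wm C A r p j (f x) = zp C r (R x.1.1) (a x.1.1) * zp C p (R x.1.1) (b x.1.1) *
        (zp A j (d x.1.1) x.2 * zp A j x.1.2 (e x.1.1)) := by
    intro x hx
    obtain ⟨g1, g8, g9⟩ := sP2 x hx
    obtain ⟨g0, g10, g11⟩ := sP1 x.1 g1
    have h1 := mar_ne_zero B.nn (fun ω => (R ω, a ω)) g0
    rw [B.la] at h1
    have h2 := mar_ne_zero B.nn (fun ω => (R ω, b ω)) g0
    rw [B.lb] at h2
    have h3 := (st_PP hE hC r).sup _ h1
    have h4 := (st_PP hE hC p).sup _ h2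
    have h5 := mar_ne_zero q0 (fun x => (d x.1.1, x.2)) hx
    rw [l3] at h5
    have h6 := mar_ne_zero q0 (fun x => (x.1.2, e x.1.1)) hx
    rw [l4] at h6
    refine ⟨h3, h4, V1 _ h5, V1 _ h6, ?_⟩
    have k1 : C (a x.1.1) (x.2, e x.1.1) = 1 :=
      hC.c1 (a x.1.1).1 (a x.1.1).2 (e x.1.1) x.2 (sa _ g0) (B.sve _ g0) g8 g9
    have k2 : C (b x.1.1) (x.1.2, d x.1.1) = 1 :=
      hC.c1 (b x.1.1).1 (b x.1.1).2 (d x.1.1) x.1.2 (sb _ g0) (B.sud _ g0) g10 g11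
    unfold wm cj
    simp only [hf]
    rw [k1, k2]
    ring
  have key := ent_log_sum q0 q1 f (wm C A r p j) (fun y => by
      unfold wm cj
      exact mul_nonneg (mul_nonneg (mul_nonneg (zp_nonneg hC.c0 _ _ _) (hC.c0 _ _))
        (mul_nonneg (zp_nonneg hC.c0 _ _ _) (hC.c0 _ _)))
        (mul_nonneg (zp_nonneg hA _ _ _) (zp_nonneg hA _ _ _)))
    (fun x hx => by
      obtain ⟨h1, h2, h3, h4, h5⟩ := hz x hx
      rw [h5]
      exact mul_ne_zero (mul_ne_zero h1 h2) (mul_ne_zero h3 h4))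
  rw [sum_wm] at key
  refine ⟨key.1, ?_⟩
  have key2 := key.2
  -- the mean of the logarithm
  have e1 : ∑ x, P2 x * Real.log (wm C A r p j (f x)) =
      ∑ x, PP Q r x * Real.log (zp C r x.1 x.2) +
        ∑ x, PP Q p x * Real.log (zp C p x.1 x.2) +
        2 * ∑ x, EE Q j x * Real.log (zp A j x.1 x.2) := by
    have e3 : ∀ x, P2 x * Real.log (wm C A r p j (f x)) =
        P2 x * Real.log (zp C r (R x.1.1) (a x.1.1)) +
        P2 x * Real.log (zp C p (R x.1.1) (b x.1.1)) +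
        P2 x * Real.log (zp A j (d x.1.1) x.2) +
        P2 x * Real.log (zp A j x.1.2 (e x.1.1)) := by
      intro x
      by_cases hx : P2 x = 0
      · rw [hx]; ring
      obtain ⟨h1, h2, h3, h4, h5⟩ := hz x hx
      rw [h5, Real.log_mul (mul_ne_zero h1 h2) (mul_ne_zero h3 h4), Real.log_mul h1 h2,
        Real.log_mul h3 h4]
      ring
    rw [Finset.sum_congr rfl fun x _ => e3 x, Finset.sum_add_distrib, Finset.sum_add_distrib,
      Finset.sum_add_distrib]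
    have e4 := sum_mar P2 (fun x => (R x.1.1, a x.1.1)) (fun y => Real.log (zp C r y.1 y.2))
    have e5 := sum_mar P2 (fun x => (R x.1.1, b x.1.1)) (fun y => Real.log (zp C p y.1 y.2))
    have e6 := sum_mar P2 (fun x => (d x.1.1, x.2)) (fun y => Real.log (zp A j y.1 y.2))
    have e7 := sum_mar P2 (fun x => (x.1.2, e x.1.1)) (fun y => Real.log (zp A j y.1 y.2))
    rw [m2 (fun ω => (R ω, a ω)), B.la] at e4
    rw [m2 (fun ω => (R ω, b ω)), B.lb] at e5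
    rw [l3] at e6
    rw [l4] at e7
    rw [← e4, ← e5, ← e6, ← e7]
    ring
  have v1 := (st_PP hE hC r).va
  have v2 := (st_PP hE hC p).va
  unfold Vale.Agent.P050.M18.val at v1 v2
  have v3 : Cart.ent (PP Q r) (fun x => (x.1, x.2)) = hP Q r := rfl
  have v4 : Cart.ent (PP Q p) (fun x => (x.1, x.2)) = hP Q p := rfl
  rw [v3] at v1
  rw [v4] at v2
  -- the entropies
  have f1 := cop_ent B.nn c1 (fun ω => (b ω).2) (fun ω => (R ω, a ω, b ω, d ω, e ω))
    (fun z => (z.2.2.1.1, z.2.2.2.1, z.2.2.2.2)) (fun _ => rfl)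
  rw [← hP1] at f1
  have f2 := cop_ent p0 c2' (fun x => (a x.1).2)
    (fun x => ((R x.1, a x.1, b x.1, d x.1, e x.1), x.2))
    (fun z => (z.1.2.1.1, z.1.2.2.2.2, z.1.2.2.2.1)) (fun _ => rfl)
  rw [← hP2] at f2
  have f5 : Cart.ent P2 f =
      Cart.ent P2 (fun x => (((R x.1.1, a x.1.1, b x.1.1, d x.1.1, e x.1.1), x.1.2), x.2)) :=
    ent_same _ fun x y => by
      simp only [hf, Prod.mk.injEq]
      tauto
  have f6 : Cart.ent P c1 ≤ 3 * aQ Q := three_le B.nn B.tot enb hend ene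
  have f7 : Cart.ent P1 c2' ≤ 3 * aQ Q := by
    have h1 : Cart.ent P1 c2' = Cart.ent P (fun ω => ((a ω).1, e ω, d ω)) :=
      cop_ent_fst B.nn _ _ (fun ω => ((a ω).1, e ω, d ω))
    rw [h1]
    exact three_le B.nn B.tot ena ene hend
  have f8 : Cart.ent P1 (fun x => (c2' x, (a x.1).2)) =
      Cart.ent P (fun ω => (((a ω).1, e ω, d ω), (a ω).2)) :=
    cop_ent_fst B.nn _ _ (fun ω => (((a ω).1, e ω, d ω), (a ω).2))
  have b0 := B.ent
  have b1 := B.e1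
  have b2 := B.e2
  rw [f8] at f2
  rw [e1, f5] at key2
  linarith

end main

end Vale.Agent.P050.H395
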