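import Vale.Agent.P050.H395.Base
import Vale.Agent.P050.H395.Close

/-!
Two ladders from a centre rung inside a natural walk, with natural walks back from both ends.
-/

set_option linter.unusedSectionVars false

namespace Vale.Agent.P050.H395

open Finset Vale.Agent.P050.Cart Vale.Agent.P050.Join Vale.Agent.P050.M18 Vale.Agent.P050.H546

section two

variable {U Ω : Type} [Fintype U] [DecidableEq U] [Fintype Ω] {Q : U × U → ℝ} {P : Ω → ℝ}
  {a b : Ω → U × U}

variable (hE : Edge Q) {l : ℕ} (nn : ∀ ω, 0 ≤ P ω) (tot : ∑ ω, P ω = 1)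
  (lvu : mar P (fun ω => ((a ω).2, (b ω).2)) = EE Q (l + 1))

include hE nn lvu

theorem hmd : mar P (fun ω => ((b ω).2, (a ω).2)) = mar (FF Q l) (fun x => (x.1.1, x.2)) := by
  rw [FF_0z hE, EE_swap hE lvu]

theorem He_nn (x) : 0 ≤ He Q l P a b x := xat_nonneg _ nn (FF_nn hE l) x

include tot in
theorem He_tot : ∑ x, He Q l P a b x = 1 := xat_total _ nn (hmd hE nn lvu) tot

theorem He_fst {α : Type} (g : Ω → α) : mar (He Q l P a b) (fun x => g x.1) = mar P g :=
  xat_fst _ nn (hmd hE nn lvu) g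

theorem hme : mar (He Q l P a b) (fun x => ((a x.1).2, (b x.1).2)) =
    mar (FF Q l) (fun x => (x.1.1, x.2)) := by
  rw [FF_0z hE, He_fst hE nn lvu (fun ω => ((a ω).2, (b ω).2)), lvu]

theorem Hf_nn (x) : 0 ≤ Hf Q l P a b x :=
  xat_nonneg _ (He_nn hE nn lvu) (FF_nn hE l) x

include tot in
theorem Hf_tot : ∑ x, Hf Q l P a b x = 1 :=
  xat_total _ (He_nn hE nn lvu) (hme hE nn lvu) (He_tot hE nn tot lvu)

theorem Hf_fst {α : Type} (g : Ω × U → α) :
    mar (Hf Q l P a b) (fun x => g x.1) = mar (He Q l P a b) g :=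
  xat_fst _ (He_nn hE nn lvu) (hme hE nn lvu) g

theorem Hf_fst2 {α : Type} (g : Ω → α) :
    mar (Hf Q l P a b) (fun x => g x.1.1) = mar P g :=
  (Hf_fst hE nn lvu (fun x => g x.1)).trans (He_fst hE nn lvu g)

theorem Hf_ent2 {α : Type} [Fintype α] (g : Ω → α) :
    ent (Hf Q l P a b) (fun x => g x.1.1) = ent P g := by
  unfold ent
  rw [Hf_fst2 hE nn lvu g]

theorem He_law : mar (He Q l P a b) (fun x => (((b x.1).2, (a x.1).2), x.2)) =
    mar (FF Q l) (fun x => ((x.1.1, x.2), x.1.2)) := by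
  have h1 := xat_law (P := P) (c := fun ω => ((b ω).2, (a ω).2)) (P' := FF Q l)
    (c' := fun x => (x.1.1, x.2)) (fun x => x.1.2) (FF_nn hE l) (hmd hE nn lvu)
  exact h1

theorem Hf_law : mar (Hf Q l P a b) (fun x => (((a x.1.1).2, (b x.1.1).2), x.2)) =
    mar (FF Q l) (fun x => ((x.1.1, x.2), x.1.2)) := by
  have h1 := xat_law (P := He Q l P a b) (c := fun x => ((a x.1).2, (b x.1).2)) (P' := FF Q l)
    (c' := fun x => (x.1.1, x.2)) (fun x => x.1.2) (FF_nn hE l) (hme hE nn lvu)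
  exact h1

theorem He_ent {α : Type} [Fintype α] (g : Ω → α) (k : α → U × U)
    (hk : ∀ ω, ((b ω).2, (a ω).2) = k (g ω)) :
    ent (He Q l P a b) (fun x => (g x.1, x.2)) =
      ent P g + (hQ Q + hh Q l - aQ Q - hh Q (l + 1)) := by
  have h1 := xat_ent (P := P) (c := fun ω => ((b ω).2, (a ω).2)) (P' := FF Q l)
    (c' := fun x => (x.1.1, x.2)) (fun x => x.1.2) nn (FF_nn hE l) (hmd hE nn lvu) g k hk
  rw [FF_ent hE, FF_ent0 hE] at h1
  exact h1

theorem Hf_ent {α : Type} [Fintype α] (g : Ω × U → α) (k : α → U × U)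
    (hk : ∀ x, ((a x.1).2, (b x.1).2) = k (g x)) :
    ent (Hf Q l P a b) (fun x => (g x.1, x.2)) =
      ent (He Q l P a b) g + (hQ Q + hh Q l - aQ Q - hh Q (l + 1)) := by
  have h1 := xat_ent (P := He Q l P a b) (c := fun x => ((a x.1).2, (b x.1).2)) (P' := FF Q l)
    (c' := fun x => (x.1.1, x.2)) (fun x => x.1.2) (He_nn hE nn lvu) (FF_nn hE l)
    (hme hE nn lvu) g k hk
  rw [FF_ent hE, FF_ent0 hE] at h1
  exact h1

theorem Lue : mar (Hf Q l P a b) (fun x => ((b x.1.1).2, x.2)) = EE Q l := by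
  refine EE_swap hE (f := fun x : (Ω × U) × U => x.2) (g := fun x => (b x.1.1).2) ?_
  have h1 : mar (Hf Q l P a b) (fun x => (x.2, (b x.1.1).2)) =
      mar (mar (Hf Q l P a b) (fun x => (((a x.1.1).2, (b x.1.1).2), x.2)))
        (fun y => (y.2, y.1.2)) := by
    funext c
    rw [mar_mar]
  rw [h1, Hf_law hE nn lvu]
  funext c
  rw [mar_mar]
  exact congrFun (FF_1z hE l) c

theorem Ldv : mar (Hf Q l P a b) (fun x => (x.1.2, (a x.1.1).2)) = EE Q l := by
  have h0 := Hf_fst hE nn lvu (fun x => (x.2, (a x.1).2))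
  refine h0.trans ?_
  have h1 : mar (He Q l P a b) (fun x => (x.2, (a x.1).2)) =
      mar (mar (He Q l P a b) (fun x => (((b x.1).2, (a x.1).2), x.2)))
        (fun y => (y.2, y.1.2)) := by
    funext c
    rw [mar_mar]
  rw [h1, He_law hE nn lvu]
  funext c
  rw [mar_mar]
  exact congrFun (FF_1z hE l) c

/-- the entropy of `(b, d, e)` -/
theorem Ebde : ent P (fun ω => (b ω, (a ω).2)) + (hQ Q + 2 * hh Q l - aQ Q - 2 * hh Q (l + 1)) ≤
    ent (Hf Q l P a b) (fun x => (((b x.1.1).1, x.1.2, x.2), (b x.1.1).2)) := by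
  have h1 := Hf_ent hE nn lvu (fun x => ((b x.1, (a x.1).2), x.2))
    (fun y => (y.1.2, y.1.1.2)) (fun _ => rfl)
  have h2 := He_ent hE nn lvu (fun ω => (b ω, (a ω).2)) (fun y => (y.1.2, y.2)) (fun _ => rfl)
  rw [h2] at h1
  have s1 := subm (Hf_nn hE nn lvu) (A := fun x => (((b x.1.1).1, x.1.2, x.2), (b x.1.1).2))
    (B := fun x => (((a x.1.1).2, (b x.1.1).2), x.2))
    (C := fun x => (((b x.1.1, (a x.1.1).2), x.1.2), x.2))
    (D := fun x => ((b x.1.1).2, x.2)) (fun x y => by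
      simp only [Prod.ext_iff]
      tauto) (fun x y => by
      simp only [Prod.mk.injEq]
      tauto) (fun x y => by
      simp only [Prod.mk.injEq]
      tauto)
  have t1 : ent (Hf Q l P a b) (fun x => (((a x.1.1).2, (b x.1.1).2), x.2)) =
      hQ Q + hh Q l - aQ Q := by
    rw [← FF_ent hE l]
    refine ent_law fun c => ?_
    rw [Hf_law hE nn lvu]
  have t2 : ent (Hf Q l P a b) (fun x => ((b x.1.1).2, x.2)) = hh Q l := by
    unfold hh
    refine ent_law fun c => ?_
    rw [Lue hE nn lvu, mar_id]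
  rw [t1, t2, h1] at s1
  linarith

/-- the entropy of `(a, d, e)` -/
theorem Eade : ent P (fun ω => (a ω, (b ω).2)) + (hQ Q + 2 * hh Q l - aQ Q - 2 * hh Q (l + 1)) ≤
    ent (Hf Q l P a b) (fun x => (((a x.1.1).1, x.2, x.1.2), (a x.1.1).2)) := by
  have h1 := Hf_ent hE nn lvu (fun x => ((a x.1, (b x.1).2), x.2))
    (fun y => (y.1.1.2, y.1.2)) (fun _ => rfl)
  have h2 := He_ent hE nn lvu (fun ω => (a ω, (b ω).2)) (fun y => (y.2, y.1.2)) (fun _ => rfl)
  rw [h2] at h1
  have s1 := subm (Hf_nn hE nn lvu) (A := fun x => (((a x.1.1).1, x.2, x.1.2), (a x.1.1).2))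
    (B := fun x => (((b x.1.1).2, (a x.1.1).2), x.1.2))
    (C := fun x => (((a x.1.1, (b x.1.1).2), x.1.2), x.2))
    (D := fun x => (x.1.2, (a x.1.1).2)) (fun x y => by
      simp only [Prod.ext_iff]
      tauto) (fun x y => by
      simp only [Prod.mk.injEq]
      tauto) (fun x y => by
      simp only [Prod.mk.injEq]
      tauto)
  have t1 : ent (Hf Q l P a b) (fun x => (((b x.1.1).2, (a x.1.1).2), x.1.2)) =
      hQ Q + hh Q l - aQ Q := by
    have h3 : ent (Hf Q l P a b) (fun x => (((b x.1.1).2, (a x.1.1).2), x.1.2)) =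
        ent (He Q l P a b) (fun x => (((b x.1).2, (a x.1).2), x.2)) := by
      unfold ent
      rw [Hf_fst hE nn lvu (fun x => (((b x.1).2, (a x.1).2), x.2))]
    rw [h3, ← FF_ent hE l]
    refine ent_law fun c => ?_
    rw [He_law hE nn lvu]
  have t2 : ent (Hf Q l P a b) (fun x => (x.1.2, (a x.1.1).2)) = hh Q l := by
    unfold hh
    refine ent_law fun c => ?_
    rw [Ldv hE nn lvu, mar_id]
  rw [t1, t2, h1] at s1
  linarith

end two

section base

variable {U : Type} [Fintype U] [DecidableEq U] {Q : U × U → ℝ} (hE : Edge Q) (r p : ℕ)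

include hE

theorem P1_Rb_ent : ent (P1 Q r p) (fun x => (x.1.1, x.2)) = hP Q p := by
  unfold hP
  refine ent_law fun c => ?_
  rw [P1_Rb hE, mar_id]

theorem P1_b_ent : ent (P1 Q r p) (fun x => x.2) = hQ Q := by
  rw [← e2f hE r p (fun x => x.2)]
  exact entb hE r p

theorem P1_a_ent : ent (P1 Q r p) (fun x => x.1.2) = hQ Q := by
  have h1 : ent (P1 Q r p) (fun x => x.1.2) = ent (PP Q r) (fun x => x.2) := by
    unfold ent
    rw [P1_fst hE r p (fun x => x.2)]
  rw [h1]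
  exact (PP_lab hE r).ent_edge hE fun e => e

theorem P1_Ra_ent : ent (P1 Q r p) (fun x => x.1) = hP Q r := by
  unfold hP ent
  rw [P1_fst hE r p (fun x => x)]

/-- `(b, v)` -/
theorem Ebv : hQ Q - aQ Q + hh Q r ≤ ent (P1 Q r p) (fun x => (x.2, x.1.2.2)) := by
  have s1 := subm (P1_nn hE r p) (A := fun x => (x.2, x.1.2.2))
    (B := fun x => (x.1.1, x.2)) (C := fun x => ((x.1.1, x.2), x.1.2.2))
    (D := fun x => x.2) (fun x y => by
      simp only [Prod.mk.injEq]
      tauto) (fun x y => by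
      simp only [Prod.mk.injEq]
      tauto) (fun x y => by
      simp only [Prod.mk.injEq]
      tauto)
  have t1 : ent (P1 Q r p) (fun x => ((x.1.1, x.2), x.1.2.2)) = hP Q p + (hh Q r - aQ Q) := by
    rw [← entW hE p r]
    refine ent_law fun c => ?_
    obtain ⟨⟨R, b⟩, y⟩ := c
    have h2 : mar (P1 Q r p) (fun x => ((x.1.1, x.2), x.1.2.2)) ((R, b), y) =
        mar (P1 Q r p) (fun x => ((x.1.1, x.1.2.2), x.2)) ((R, y), b) :=
      mar_inj (P1 Q r p) (fun x => ((x.1.1, x.1.2.2), x.2))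
        (e := fun w : ((U × U) × U) × (U × U) => ((w.1.1, w.2), w.1.2)) (fun a b hab => by
          simp only [Prod.mk.injEq] at hab
          exact Prod.ext (Prod.ext hab.1.1 hab.2) hab.1.2) ((R, y), b)
    rw [h2, P1_Rba hE, mar_id]
    show _ = PP Q p (R, b) * zp (nb Q) r R.2 y
    rw [PP_apply hE]
    ring
  rw [t1, P1_b_ent hE, P1_Rb_ent hE] at s1
  linarith

/-- `(a, u)` -/
theorem Eau : hQ Q - aQ Q + hh Q p ≤ ent (P1 Q r p) (fun x => (x.1.2, x.2.2)) := by
  have s1 := subm (P1_nn hE r p) (A := fun x => (x.1.2, x.2.2))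
    (B := fun x => x.1) (C := fun x => (x.1, x.2.2))
    (D := fun x => x.1.2) (fun x y => by
      simp only [Prod.mk.injEq]
      tauto) (fun x y => by
      simp only [Prod.mk.injEq]
      tauto) (fun x y => by
      intro h
      rw [h])
  have t1 : ent (P1 Q r p) (fun x => (x.1, x.2.2)) = hP Q r + (hh Q p - aQ Q) := by
    rw [← entW hE r p]
    refine ent_law fun c => ?_
    obtain ⟨⟨R, a⟩, z⟩ := c
    rw [P1_Rab hE, mar_id]
    rfl
  rw [t1, P1_a_ent hE, P1_Ra_ent hE] at s1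
  linarith

theorem P1_lvu {l : ℕ} (hl : p + r = l + 1) :
    mar (P1 Q r p) (fun ω => (ω.1.2.2, ω.2.2)) = EE Q (l + 1) := by
  rw [← hl]
  exact EE_swap hE (f := fun x : ((U × U) × (U × U)) × (U × U) => x.2.2)
    (g := fun x => x.1.2.2) (P1_ab hE r p)

theorem B2b {l : ℕ} (hl : p + r = l + 1) :
    B2 Q r p l (Hf Q l (P1 Q r p) (fun x => x.1.2) (fun x => x.2))
    (fun x => x.1.1.1.1) (fun x => x.1.1.1.2) (fun x => x.1.1.2) (fun x => x.1.2) (fun x => x.2)
    (hP Q r + hP Q p - hQ Q + 2 * (hQ Q + hh Q l - aQ Q - hh Q (l + 1)))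
    (hQ Q - aQ Q + hh Q r + (hQ Q + 2 * hh Q l - aQ Q - 2 * hh Q (l + 1)))
    (hQ Q - aQ Q + hh Q p + (hQ Q + 2 * hh Q l - aQ Q - 2 * hh Q (l + 1))) := by
  have nn := P1_nn (Q := Q) hE r p
  have tot := P1_tot (Q := Q) hE r p
  have lvu := P1_lvu hE r p hl
  refine ⟨Hf_nn hE nn lvu, Hf_tot hE nn tot lvu, ?_, ?_, ?_, ?_, Lue hE nn lvu, Ldv hE nn lvu,
    ?_, ?_, ?_⟩
  · have h1 := Hf_fst2 hE nn lvu (fun x => x.1)
    have h2 := P1_fst hE r p (fun x => x)
    refine (h1.trans h2).trans ?_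
    funext c
    exact mar_id _ c
  · have h1 := Hf_fst2 hE nn lvu (fun x => (x.1.1, x.2))
    rw [P1_Rb hE] at h1
    exact h1
  · intro x hx
    obtain ⟨h1, -⟩ := xat_ne_zero _ (He_nn hE nn lvu) (FF_nn hE l) hx
    obtain ⟨-, ω, h2, h3, h4⟩ := xat_ne_zero _ nn (FF_nn hE l) h1
    have h5 := (left_ne_zero_of_mul h2 : Q ω.1 ≠ 0)
    simp only [Prod.mk.injEq] at h3
    have h6 : ω.1 = (x.1.1.2.2, x.1.2) := Prod.ext h3.1 h4
    rw [h6] at h5
    exact h5
  · intro x hx
    obtain ⟨-, ω, h2, h3, h4⟩ := xat_ne_zero _ (He_nn hE nn lvu) (FF_nn hE l) hx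
    have h5 := (left_ne_zero_of_mul h2 : Q ω.1 ≠ 0)
    simp only [Prod.mk.injEq] at h3
    have h6 : ω.1 = (x.1.1.1.2.2, x.2) := Prod.ext h3.1 h4
    rw [h6] at h5
    exact h5
  · have h1 := Hf_ent hE nn lvu (fun x => x) (fun y => (y.1.1.2.2, y.1.2.2)) (fun _ => rfl)
    have h2 := He_ent hE nn lvu (fun x => x) (fun y => (y.2.2, y.1.2.2)) (fun _ => rfl)
    have h3 := entP1 hE r p
    have h4 : ent (Hf Q l (P1 Q r p) (fun x => x.1.2) (fun x => x.2))
        (fun x => (x.1.1.1.1, x.1.1.1.2, x.1.1.2, x.1.2, x.2)) =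
        ent (Hf Q l (P1 Q r p) (fun x => x.1.2) (fun x => x.2)) (fun x => (x.1, x.2)) :=
      ent_same _ fun x y => by
        simp only [Prod.ext_iff]
        tauto
    have h5 : ent (He Q l (P1 Q r p) (fun x => x.1.2) (fun x => x.2)) (fun x => (x.1, x.2)) =
      ent (He Q l (P1 Q r p) (fun x => x.1.2) (fun x => x.2)) (fun x => x) := rfl
    rw [h5] at h2
    rw [h4, h1, h2, h3]
    linarith
  · have h1 := Ebde hE nn lvu
    have h2 := Ebv hE r p
    linarith
  · have h1 := Eade hE nn lvu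
    have h2 := Eau hE r p
    linarith

end base

section convex

variable {U : Type} [Fintype U] [DecidableEq U] {Q : U × U → ℝ} (hE : Edge Q)

include hE

/-- the entropy of the ends of a walk is concave in the length -/
theorem hh_concave (n : ℕ) : hh Q n + hh Q (n + 2) ≤ 2 * hh Q (n + 1) := by
  have m1 : mar (FF Q n) (fun x => x.2) = mm Q := by
    have h1 : mar (FF Q n) (fun x => x.2) = mar (mar (FF Q n) (fun x => (x.1.1, x.2)))
        (fun y => y.2) := by
      funext c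
      rw [mar_mar]
    rw [h1, FF_0z hE]
    exact EE_f hE (f := fun y : U × U => y.2) (g := fun y => y.1)
      (EE_swap hE (f := fun y : U × U => y.1) (g := fun y => y.2) (by
        funext c
        exact mar_id _ c))
  have nnF := FF_nn hE n
  have nn4 : ∀ x, 0 ≤ att (FF Q n) (fun x => x.2) (nb Q) x := att_nonneg nnF hE.nb_nn
  have s1 := subm nn4 (A := fun x => (x.1.1, x.2)) (B := fun x => ((x.1.1.1, x.1.2), x.2))
    (C := fun x => ((x.1.1, x.1.2), x.2)) (D := fun x => (x.1.1.1, x.2)) (fun x y => by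
      simp only [Prod.ext_iff]
      tauto) (fun x y => by
      simp only [Prod.ext_iff]
      tauto) (fun x y => by
      simp only [Prod.ext_iff]
      tauto)
  have c1 := n_ent hE nnF m1 (fun x => (x.1, x.2)) (fun y => y.2) (fun _ => rfl)
  have c2 := n_ent hE nnF m1 (fun x => (x.1.1, x.2)) (fun y => y.2) (fun _ => rfl)
  have d1 : ent (FF Q n) (fun x => (x.1, x.2)) = hQ Q + hh Q n - aQ Q := by
    rw [← FF_ent hE n]
    exact ent_same _ fun x y => by
      simp only [Prod.ext_iff]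
      tauto
  have d2 : ent (FF Q n) (fun x => (x.1.1, x.2)) = hh Q (n + 1) := FF_ent0 hE n
  have lA : mar (att (FF Q n) (fun x => x.2) (nb Q)) (fun x => (x.1.1, x.2)) =
      mar (FF Q (n + 1)) (fun x => x) := by
    funext ⟨e, z⟩
    have h := att_mar2 (FF Q n) (fun x => x.2) (nb Q) (fun x => x.1) e z
    refine h.trans ?_
    rw [mar_id]
    show ∑ d, mar (FF Q n) (fun x => (x.1, x.2)) (e, d) * nb Q d z =
      Q e * ∑ c, zp (nb Q) n e.2 c * nb Q c z
    rw [Finset.mul_sum]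
    refine Finset.sum_congr rfl fun d _ => ?_
    rw [show mar (FF Q n) (fun x => (x.1, x.2)) (e, d) = FF Q n (e, d) from mar_id _ _]
    show Q e * zp (nb Q) n e.2 d * nb Q d z = _
    ring
  have eA : ent (att (FF Q n) (fun x => x.2) (nb Q)) (fun x => (x.1.1, x.2)) =
      hQ Q + hh Q (n + 1) - aQ Q := by
    rw [← FF_ent hE (n + 1)]
    have h1 : ent (FF Q (n + 1)) (fun x => ((x.1.1, x.2), x.1.2)) =
        ent (FF Q (n + 1)) (fun x => x) := ent_same _ fun x y => by
      simp only [Prod.ext_iff]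
      tauto
    rw [h1]
    refine ent_law fun c => ?_
    rw [lA]
  have eD : ent (att (FF Q n) (fun x => x.2) (nb Q)) (fun x => (x.1.1.1, x.2)) =
      hh Q (n + 2) := by
    have h1 : ent (att (FF Q n) (fun x => x.2) (nb Q)) (fun x => (x.1.1.1, x.2)) =
        ent (mar (att (FF Q n) (fun x => x.2) (nb Q)) (fun x => (x.1.1, x.2)))
          (fun y => (y.1.1, y.2)) := by
      rw [ent_mar]
    rw [h1, lA, ent_mar]
    exact FF_ent0 hE (n + 1)
  rw [c1, d1, c2, d2] at s1
  rw [eA, eD] at s1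
  linarith

end convex

end Vale.Agent.P050.H395
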