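import Vale.Agent.P050.H395.Base
import Vale.Agent.P050.H395.Close
import Vale.Agent.P050.H292.GF
import Vale.Agent.P050.H292.GG
import Vale.Agent.P050.H869.GV
import Vale.Agent.P050.H23.GI

/-!
Moebius ladders with `2 t + 3` rungs, without `t ≥ 2` consecutive rungs.
-/

set_option linter.unusedSectionVars false

namespace Vale.Agent.P050.H395

open Finset Vale.Agent.P050.H148 Vale.Agent.P050.Cart Vale.Agent.P050.Join Vale.Agent.P050.M18
open Vale.Agent.P050.H546 Vale.Agent.P050.H292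

section base

variable {U : Type} [Fintype U] [DecidableEq U] {Q : U × U → ℝ} (hE : Edge Q) (r p : ℕ)

include hE

theorem P3_B2 : B2 Q r p (p + r + 1) (P3 Q r p) (fun x => x.1.1.1.1) (fun x => x.1.1.1.2)
    (fun x => x.1.1.2) (fun x => x.2) (fun x => x.1.2)
    (hP Q r + hP Q p - hQ Q + 2 * (hQ Q - aQ Q)) (2 * hQ Q - 2 * aQ Q + hh Q (r + 1))
    (2 * hQ Q - 2 * aQ Q + hh Q (p + 1)) where
  nn := P3_nn hE r p
  tot := P3_tot hE r p
  la := by
    have h := P3_fst3 hE r p (fun x => x)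
    refine Eq.trans h ?_
    funext c
    exact mar_id _ c
  lb := by
    have h := P3_fst2 hE r p (fun x => (x.1.1, x.2))
    rw [P1_Rb hE] at h
    exact h
  sud := by
    intro x hx h0
    apply hx
    have h1 : P3 Q r p x = P2 Q r p x.1 * nb Q x.1.1.2.2 x.2 := rfl
    have h2 : nb Q x.1.1.2.2 x.2 = Q (x.1.1.2.2, x.2) / mm Q x.1.1.2.2 := rfl
    rw [h1, h2, h0]
    simp
  sve := by
    intro x hx h0
    apply hx
    have h1 : P3 Q r p x = P1 Q r p x.1.1 * nb Q x.1.1.1.2.2 x.1.2 * nb Q x.1.1.2.2 x.2 := rfl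
    have h2 : nb Q x.1.1.1.2.2 x.1.2 = Q (x.1.1.1.2.2, x.1.2) / mm Q x.1.1.1.2.2 := rfl
    rw [h1, h2, h0]
    simp
  lue := lue hE r p
  ldv := ldv hE r p
  ent := (eAll hE r p).ge
  e1 := e1 hE r p
  e2 := e2 hE r p

end base

/-- the entropy side -/
theorem gent {U : Type} [Fintype U] [DecidableEq U] {C : U × U → U × U → ℝ}
    {A : U → U → ℝ} {Q : U × U → ℝ} (hE : Edge Q) (hC : Four C Q) (hA : ∀ x y, 0 ≤ A x y)
    (hA1 : ∀ x y, Q (x, y) ≠ 0 → A x y = 1) {t : ℕ} (ht : 2 ≤ t) :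
    0 < nM C A (t - 1) 1 (t + 1) ∧ (5 * t + 9) * hQ Q - (6 * t + 12) * aQ Q ≤
      Real.log (nM C A (t - 1) 1 (t + 1)) := by
  obtain ⟨r, rfl⟩ : ∃ r, t = r + 1 := ⟨t - 1, by omega⟩
  have hr : 1 ≤ r := by omega
  have hB := P3_B2 hE r 1
  rw [show 1 + r + 1 = r + 1 + 1 by ring] at hB
  obtain ⟨h5, h6⟩ := close H869.gval hE hC hA hA1 hB
  rw [show r + 1 - 1 = r from rfl]
  refine ⟨h5, le_trans ?_ h6⟩
  obtain ⟨i1, i2, i3, i4⟩ := H23.gInf U Q hE
  have e1 : gQ Q = 3 * hQ Q - 2 * aQ Q - h2Q Q := rfl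
  have e2 := i2 (r + 1 + 1)
  have e5 : h2Q Q ≤ hh Q (r + 1) := by
    rw [← i1]
    exact monotone_nat_of_le_succ i3 (by omega)
  have e6 : 0 ≤ 2 * aQ Q - h2Q Q := by
    rw [← i1]
    linarith [i2 2]
  have e8 : hh Q (1 + 1) = h2Q Q := i1
  have hr' : (1 : ℝ) ≤ r := by exact_mod_cast hr
  have e7 : 0 ≤ ((r : ℝ) - 1) * (2 * aQ Q - h2Q Q) :=
    mul_nonneg (by linarith) e6
  rw [e1, e8]
  push_cast
  nlinarith [e2, e5, e6, e7]

section graph

variable {X : Type} [Fintype X] (G : SimpleGraph X) [DecidableEq X]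

/-- cutting at the centre rung -/
theorem nM_eq (t : ℕ) (ht : 2 ≤ t) :
    ∑ b, ∑ a, zp (CG G) (t + 2) b a * cj (adj G) (t + 1) b a =
    nM (CG G) (adj G) (t - 1) 1 (t + 1) := by
  unfold nM
  have h1 : ∀ b a, zp (CG G) (t + 2) b a * cj (adj G) (t + 1) b a =
      ∑ R, zp (CG G) (t - 1 + 1) R a * zp (CG G) (1 + 1) R b * cj (adj G) (t + 1) b a := by
    intro b a
    rw [show t + 2 = (1 + 1) + (t - 1 + 1) by omega, zp_add, Finset.sum_mul]
    refine Finset.sum_congr rfl fun R _ => ?_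
    rw [zp_symm (CG_symm G) (1 + 1) b R]
    ring
  rw [Finset.sum_congr rfl fun b _ => Finset.sum_congr rfl fun a _ => h1 b a]
  rw [Finset.sum_congr rfl fun b _ => Finset.sum_comm, Finset.sum_comm]
  refine Finset.sum_congr rfl fun R _ => ?_
  rw [Finset.sum_comm]

end graph

/-- Moebius ladders with `2 t + 3` rungs, without `t ≥ 2` consecutive rungs -/
theorem final (X : Type) [Fintype X] [Nonempty X] (G : SimpleGraph X) (t : ℕ) (ht : 2 ≤ t) :
    edgeDensity G ^ (3 * (2 * t + 3) - t) ≤ homDensity (cutLadder (2 * t + 3) t) G := by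
  classical
  have hnn := hom_nn G (cutLadder (2 * t + 3) t)
  rcases (edge_nn G).lt_or_eq with hp | hp
  · have hG := exists_adj G hp
    have hN := card_pos' (X := X)
    obtain ⟨h1, h2⟩ := gent (QU_edge G hG) (QU_four G) (adj_nn G) (fun x y h => QU_adj G h) ht
    have h3 := H292.GG.graph X G (t + 2) t (by omega) (by omega) ⟨t + 1, by ring⟩
    rw [nM_eq G t ht, show t + 2 + 1 + t = 2 * t + 3 by ring] at h3
    rw [← h3] at h1 h2
    have h4 : 0 < homDensity (cutLadder (2 * t + 3) t) G := by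
      rcases hnn.lt_or_eq with h | h
      · exact h
      · rw [← h, zero_mul] at h1
        exact absurd h1 (lt_irrefl _)
    rw [hQ_QU G hG, adj_sum', Real.log_mul h4.ne' (by positivity), Real.log_pow,
      Real.log_mul hp.ne' (by positivity), Real.log_pow] at h2
    have h5 := aQ_QU G hG
    rw [← Real.log_le_log_iff (by positivity) h4, Real.log_pow]
    set ℓ := Real.log (Fintype.card X) with hℓ
    have h6 : (6 * (t : ℝ) + 12) * aQ (QU G) ≤ (6 * t + 12) * ℓ :=
      mul_le_mul_of_nonneg_left h5 (by positivity)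
    have h7 : ((3 * (2 * t + 3) - t : ℕ) : ℝ) = 5 * t + 9 := by
      have : 3 * (2 * t + 3) - t = 5 * t + 9 := by omega
      rw [this]
      push_cast
      ring
    rw [h7]
    push_cast at h2
    nlinarith [h2, h6]
  · rw [← hp, zero_pow (by omega)]
    exact hnn

end Vale.Agent.P050.H395
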