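import Vale.Agent.P050.H395.BaseB
import Vale.Agent.P050.H395.Fin
import Vale.Agent.P050.H292.Rungs

/-!
Moebius ladders with `k ≥ 2 t + 3` rungs, without `t ≥ 2` consecutive rungs.
-/

set_option linter.unusedSectionVars false

namespace Vale.Agent.P050.H395

open Finset Vale.Agent.P050.H148 Vale.Agent.P050.Cart Vale.Agent.P050.Join Vale.Agent.P050.M18
open Vale.Agent.P050.H546 Vale.Agent.P050.H292

/-- the entropy side -/
theorem gentB {U : Type} [Fintype U] [DecidableEq U] {C : U × U → U × U → ℝ}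
    {A : U → U → ℝ} {Q : U × U → ℝ} (hE : Edge Q) (hC : Four C Q) (hA : ∀ x y, 0 ≤ A x y)
    (hA1 : ∀ x y, Q (x, y) ≠ 0 → A x y = 1) {t : ℕ} (ht : 2 ≤ t) :
    0 < nM C A t 2 (t + 1) ∧ (5 * t + 15) * hQ Q - (6 * t + 20) * aQ Q ≤
      Real.log (nM C A t 2 (t + 1)) := by
  have hB := B2b hE t 2 (l := t + 1) (by ring)
  obtain ⟨h5, h6⟩ := close H869.gval hE hC hA hA1 hB
  refine ⟨h5, le_trans ?_ h6⟩
  obtain ⟨i1, i2, i3, i4⟩ := H23.gInf U Q hE
  have e1 : gQ Q = 3 * hQ Q - 2 * aQ Q - h2Q Q := rfl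
  have e2 := i2 (t + 1 + 1)
  have e3 := i3 t
  have e4 := i3 (t + 1)
  have e5 : hh Q 2 ≤ hh Q t := monotone_nat_of_le_succ i3 ht
  have e6 : 0 ≤ 2 * aQ Q - hh Q 2 := by linarith [i2 2]
  rw [e1, ← i1]
  rcases eq_or_ne t 2 with rfl | h2
  · have c1 := hh_concave hE 2
    norm_num at c1 e2 e3 e4 e5 ⊢
    linarith
  rcases eq_or_ne t 3 with rfl | h3
  · have c1 := hh_concave hE 2
    have c2 := hh_concave hE 3
    have c3 := i3 2
    norm_num at c1 c2 c3 e2 e3 e4 e5 ⊢
    linarith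
  have ht' : (4 : ℝ) ≤ t := by exact_mod_cast (by omega : 4 ≤ t)
  have e7 : 0 ≤ ((t : ℝ) - 4) * (2 * aQ Q - hh Q 2) := mul_nonneg (by linarith) e6
  push_cast
  nlinarith [e2, e3, e4, e5, e6, e7]

section graph

variable {X : Type} [Fintype X] (G : SimpleGraph X) [DecidableEq X]

/-- cutting at the centre rung -/
theorem nM_eqB (t : ℕ) :
    ∑ b, ∑ a, zp (CG G) (t + 4) b a * cj (adj G) (t + 1) b a =
    nM (CG G) (adj G) t 2 (t + 1) := by
  unfold nM
  have h1 : ∀ b a, zp (CG G) (t + 4) b a * cj (adj G) (t + 1) b a =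
      ∑ R, zp (CG G) (t + 1) R a * zp (CG G) (2 + 1) R b * cj (adj G) (t + 1) b a := by
    intro b a
    rw [show t + 4 = (2 + 1) + (t + 1) by omega, zp_add, Finset.sum_mul]
    refine Finset.sum_congr rfl fun R _ => ?_
    rw [zp_symm (CG_symm G) (2 + 1) b R]
    ring
  rw [Finset.sum_congr rfl fun b _ => Finset.sum_congr rfl fun a _ => h1 b a]
  rw [Finset.sum_congr rfl fun b _ => Finset.sum_comm, Finset.sum_comm]
  refine Finset.sum_congr rfl fun R _ => ?_
  rw [Finset.sum_comm]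

end graph

/-- Moebius ladders with `2 t + 5` rungs, without `t ≥ 2` consecutive rungs -/
theorem finalB (X : Type) [Fintype X] [Nonempty X] (G : SimpleGraph X) (t : ℕ) (ht : 2 ≤ t) :
    edgeDensity G ^ (3 * (2 * t + 5) - t) ≤ homDensity (cutLadder (2 * t + 5) t) G := by
  classical
  have hnn := hom_nn G (cutLadder (2 * t + 5) t)
  rcases (edge_nn G).lt_or_eq with hp | hp
  · have hG := exists_adj G hp
    have hN := card_pos' (X := X)
    obtain ⟨h1, h2⟩ := gentB (QU_edge G hG) (QU_four G) (adj_nn G) (fun x y h => QU_adj G h) ht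
    have h3 := H292.GG.graph X G (t + 4) t (by omega) (by omega) ⟨t + 2, by ring⟩
    rw [nM_eqB G t, show t + 4 + 1 + t = 2 * t + 5 by ring] at h3
    rw [← h3] at h1 h2
    have h4 : 0 < homDensity (cutLadder (2 * t + 5) t) G := by
      rcases hnn.lt_or_eq with h | h
      · exact h
      · rw [← h, zero_mul] at h1
        exact absurd h1 (lt_irrefl _)
    rw [hQ_QU G hG, adj_sum', Real.log_mul h4.ne' (by positivity), Real.log_pow,
      Real.log_mul hp.ne' (by positivity), Real.log_pow] at h2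
    have h5 := aQ_QU G hG
    rw [← Real.log_le_log_iff (by positivity) h4, Real.log_pow]
    set ℓ := Real.log (Fintype.card X) with hℓ
    have h6 : (6 * (t : ℝ) + 20) * aQ (QU G) ≤ (6 * t + 20) * ℓ :=
      mul_le_mul_of_nonneg_left h5 (by positivity)
    have h7 : ((3 * (2 * t + 5) - t : ℕ) : ℝ) = 5 * t + 15 := by
      have : 3 * (2 * t + 5) - t = 5 * t + 15 := by omega
      rw [this]
      push_cast
      ring
    rw [h7]
    push_cast at h2
    nlinarith [h2, h6]
  · rw [← hp, zero_pow (by omega)]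
    exact hnn

/-- Moebius ladders with `k ≥ 2 t + 3` rungs, without `t ≥ 2` consecutive rungs -/
theorem consecutive (X : Type) [Fintype X] [Nonempty X] (G : SimpleGraph X) (k t : ℕ)
    (hk : Odd k) (ht : 2 ≤ t) (hkt : 2 * t + 3 ≤ k) :
    edgeDensity G ^ (3 * k - t) ≤ homDensity (cutLadder k t) G := by
  obtain ⟨j, hj⟩ := hk
  rcases Nat.lt_or_ge k (2 * t + 7) with h | h
  · rcases Nat.lt_or_ge k (2 * t + 5) with h1 | h1
    · obtain rfl : k = 2 * t + 3 := by omega
      exact final X G t ht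
    · obtain rfl : k = 2 * t + 5 := by omega
      exact finalB X G t ht
  · exact missing_rungs X G k t ⟨j, hj⟩ (by omega) h

end Vale.Agent.P050.H395
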